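import Vale.Agent.P207.N3.H992.Fwd2

/-!
# P207, line N3, P4: forward coordinates, without conjugation to the normal form

`h x = N (h (f x))` is the stationary normal coordinate; `X (m+1, ξ) = N ∘ X (m, ξ) ∘ G (m, ξ)`,
`X (m, ξ) → h`.
-/

noncomputable section

namespace Vale.Agent.P207.N3.H992

open Set Metric Filter Topology

variable {Ξ : Type*} [TopologicalSpace Ξ] {R ρ σ : ℝ}

theorem SB.coord' {h : Pl → Pl} (hh : SB R h) (i : Fin 2) : SB R (fun x : Pl => h x i) := fun k =>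
  BF.clm (EuclideanSpace.proj (𝕜 := ℝ) i : Pl →L[ℝ] ℝ) (hh k)

theorem fwd_tri_aux' (d : Data Pl Ξ R ρ σ) {σ' : ℝ} (hσσ' : σ < σ') (hσ' : σ' ≤ 1)
    {μ₁ μ₂ a : ℝ} {k : ℕ} (hμ₁ : μ₁ ≠ 0) (hμ₂ : μ₂ ≠ 0) {h : Pl → Pl} (hh : SB R h)
    (hf0 : ∀ x ∈ ball (0 : Pl) R, μ₁ * h (d.f x) 0 + a * h (d.f x) 1 ^ k = h x 0)
    (hf1 : ∀ x ∈ ball (0 : Pl) R, μ₂ * h (d.f x) 1 = h x 1) :
    ∃ X : ℕ × Ξ → Pl → Pl, Cv R σ' X h ∧ ∀ m ξ, ∀ x ∈ ball (0 : Pl) R,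
      X (m + 1, ξ) x = !₂[μ₁ * X (m, ξ) (d.G (m, ξ) x) 0 + a * X (m, ξ) (d.G (m, ξ) x) 1 ^ k,
        μ₂ * X (m, ξ) (d.G (m, ξ) x) 1] := by
  obtain ⟨τ, hτ1, hτ2⟩ := exists_between hσσ'
  have hτ0 : 0 < τ := d.σ_pos.trans hτ1
  have hτ3 : τ ≤ 1 := hτ2.le.trans hσ'
  obtain ⟨Y, hY, hYr⟩ := d.nse_real le_rfl hτ1 hτ3 hμ₂ (H := fun _ _ => 0) (H' := fun _ => 0)
    (Cv.cst _) (SB.cst _) (y := fun x => h x 1) (hh.coord' 1)
    (fun x hx => by rw [hf1 x hx, add_zero])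
  have hY' : ∀ m ξ, ∀ x ∈ ball (0 : Pl) R, Y (m, ξ) (d.G (m, ξ) x) = μ₂⁻¹ * Y (m + 1, ξ) x := by
    intro m ξ x hx
    rw [hYr m ξ x hx]
    field_simp
    ring
  have hH' : SB R (fun x : Pl => a * (μ₂⁻¹ * h x 1) ^ k) :=
    (SB.cst a).mul (((SB.cst μ₂⁻¹).mul (hh.coord' 1)).pow k)
  have hH : Cv R τ (fun (p : ℕ × Ξ) x => a * (μ₂⁻¹ * Y (p.1 + 1, p.2) x) ^ k)
      (fun x : Pl => a * (μ₂⁻¹ * h x 1) ^ k) :=
    Cv.mul hτ0 hτ3 (Cv.cst fun _ => a) (Cv.pow hτ0 hτ3 (Cv.mul hτ0 hτ3 (Cv.cst fun _ => μ₂⁻¹)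
      (hY.shift hτ0) (SB.cst _) (hh.coord' 1)) ((SB.cst μ₂⁻¹).mul (hh.coord' 1)) k) (SB.cst _)
      (((SB.cst μ₂⁻¹).mul (hh.coord' 1)).pow k)
  obtain ⟨Z, hZ, hZr⟩ := d.nse_real hτ1.le hτ2 hσ' hμ₁ hH hH' (y := fun x => h x 0) (hh.coord' 0)
    (fun x hx => by
      have h1 : h (d.f x) 1 = μ₂⁻¹ * h x 1 := by rw [← hf1 x hx]; field_simp
      rw [← h1, hf0 x hx])
  refine ⟨fun p x => !₂[Z p x, Y p x], ?_, fun m ξ x hx => ?_⟩
  · refine (Cv.mk2 hZ (hY.mono hτ0 hτ2.le)).congr (fun p x _ => rfl) fun x _ => ?_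
    ext i
    fin_cases i <;> rfl
  · ext i
    fin_cases i
    · change Z (m + 1, ξ) x = μ₁ * Z (m, ξ) (d.G (m, ξ) x) + a * Y (m, ξ) (d.G (m, ξ) x) ^ k
      rw [hZr m ξ x hx, hY' m ξ x hx]
    · change Y (m + 1, ξ) x = μ₂ * Y (m, ξ) (d.G (m, ξ) x)
      rw [hYr m ξ x hx, add_zero]

theorem fwd_cx_aux' (d : Data Pl Ξ R ρ σ) {σ' : ℝ} (hσσ' : σ < σ') (hσ' : σ' ≤ 1)
    (A B : Pl →L[ℝ] Pl) (hAB : A.comp B = ContinuousLinearMap.id ℝ Pl) {h : Pl → Pl} (hh : SB R h)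
    (hf : ∀ x ∈ ball (0 : Pl) R, A (h (d.f x)) = h x) :
    ∃ X : ℕ × Ξ → Pl → Pl, Cv R σ' X h ∧ ∀ m ξ, ∀ x ∈ ball (0 : Pl) R,
      X (m + 1, ξ) x = A (X (m, ξ) (d.G (m, ξ) x)) := by
  obtain ⟨X, hX, hXr⟩ := d.nse_const le_rfl hσσ' hσ' A B hAB (H := fun _ _ => 0)
    (H' := fun _ => 0) (Cv.cst _) (SB.cst _) (y := h) hh
    (fun x hx => by rw [hf x hx, add_zero])
  exact ⟨X, hX, fun m ξ x hx => by rw [hXr m ξ x hx, add_zero]⟩

/-- **forward coordinates** over a stationary normal coordinate `h` -/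
theorem forward' (d : Data Pl Ξ R ρ σ) {σ' : ℝ} (hσσ' : σ < σ') (hσ' : σ' < 1) {N : Pl → Pl}
    (hN : IsNF N) {h : Pl → Pl} (hh : SB R h) (h0 : h 0 = 0)
    (hinj : Function.Injective (fderiv ℝ h 0)) (hNf : ∀ x ∈ ball (0 : Pl) R, h x = N (h (d.f x))) :
    ∃ X : ℕ × Ξ → Pl → Pl, Cv R σ' X h ∧
      (∀ m ξ, ∀ x ∈ ball (0 : Pl) R, X (m + 1, ξ) x = N (X (m, ξ) (d.G (m, ξ) x))) ∧
      (∀ p, X p 0 = 0) ∧ ∀ p, Function.Injective (fderiv ℝ (X p) 0) := by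
  have h0m : (0 : Pl) ∈ ball (0 : Pl) R := mem_ball_self d.R_pos
  have hσ'0 : 0 < σ' := d.σ_pos.trans hσσ'
  obtain ⟨X, hX, hXr⟩ : ∃ X : ℕ × Ξ → Pl → Pl, Cv R σ' X h ∧
      (∀ m ξ, ∀ x ∈ ball (0 : Pl) R, X (m + 1, ξ) x = N (X (m, ξ) (d.G (m, ξ) x))) := by
    cases hN with
    | tri μ₁ μ₂ a k h2 h1 ha =>
      have e2 : μ₂ ≠ 0 := by
        rintro rfl
        rw [abs_zero] at h2
        linarith
      have e1 : μ₁ ≠ 0 := by
        rintro rfl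
        rw [abs_zero] at h1
        linarith
      exact fwd_tri_aux' d hσσ' hσ'.le e1 e2 hh
        (fun x hx => (congrArg (fun v : Pl => v 0) (hNf x hx)).symm)
        (fun x hx => (congrArg (fun v : Pl => v 1) (hNf x hx)).symm)
    | cx c s hs h1 =>
      have hr : c ^ 2 + s ^ 2 ≠ 0 := by positivity
      let A : Pl →L[ℝ] Pl := LinearMap.toContinuousLinearMap
        { toFun := fun x => !₂[c * x 0 - s * x 1, s * x 0 + c * x 1]
          map_add' := fun x y => by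
            ext i; fin_cases i <;> simp <;> ring
          map_smul' := fun t x => by
            ext i; fin_cases i <;> simp <;> ring }
      let B : Pl →L[ℝ] Pl := LinearMap.toContinuousLinearMap
        { toFun := fun x => !₂[(c ^ 2 + s ^ 2)⁻¹ * (c * x 0 + s * x 1),
            (c ^ 2 + s ^ 2)⁻¹ * (-s * x 0 + c * x 1)]
          map_add' := fun x y => by
            ext i; fin_cases i <;> simp <;> ring
          map_smul' := fun t x => by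
            ext i; fin_cases i <;> simp <;> ring }
      refine fwd_cx_aux' d hσσ' hσ'.le A B ?_ hh (fun x hx => (hNf x hx).symm)
      ext x i
      fin_cases i
      · change c * ((c ^ 2 + s ^ 2)⁻¹ * (c * x 0 + s * x 1)) -
          s * ((c ^ 2 + s ^ 2)⁻¹ * (-s * x 0 + c * x 1)) = x 0
        field_simp
        ring
      · change s * ((c ^ 2 + s ^ 2)⁻¹ * (c * x 0 + s * x 1)) +
          c * ((c ^ 2 + s ^ 2)⁻¹ * (-s * x 0 + c * x 1)) = x 1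
        field_simp
        ring
  -- the value at `0`
  obtain ⟨C, hC⟩ := hX.bound hσ'0
  have hz : ∀ m ξ, X (m, ξ) 0 = 0 := by
    intro m ξ
    refine hN.eq_zero (u := fun m => X (m, ξ) 0) (C := |C|) (fun m => ?_) (fun m => ?_) m
    · rw [hXr m ξ 0 h0m, d.G_zero]
    · have h1 := hC (m, ξ) 0 h0m
      rw [h0, sub_zero] at h1
      calc _ ≤ C * σ' ^ m := h1
        _ ≤ |C| * 1 := by
          gcongr
          · exact le_abs_self _
          · exact pow_le_one₀ hσ'0.le hσ'.le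
        _ = |C| := mul_one _
  -- the derivative at `0`
  have hXd : ∀ p, ∀ x ∈ ball (0 : Pl) R, DifferentiableAt ℝ (X p) x := fun p x hx =>
    hX.diff hσ'0 hσ'.le hh p hx
  have hder : ∀ m ξ, fderiv ℝ (X (m + 1, ξ)) 0 =
      (fderiv ℝ N 0).comp ((fderiv ℝ (X (m, ξ)) 0).comp (fderiv ℝ (d.G (m, ξ)) 0)) := by
    intro m ξ
    have h1 : HasFDerivAt (d.G (m, ξ)) (fderiv ℝ (d.G (m, ξ)) 0) 0 :=
      (d.cv.diff d.σ_pos (hσσ'.le.trans hσ'.le) d.f_sb (m, ξ) h0m).hasFDerivAt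
    have h2 : HasFDerivAt (X (m, ξ)) (fderiv ℝ (X (m, ξ)) 0) (d.G (m, ξ) 0) := by
      rw [d.G_zero]
      exact (hXd (m, ξ) 0 h0m).hasFDerivAt
    have h3 : HasFDerivAt N (fderiv ℝ N 0) (X (m, ξ) (d.G (m, ξ) 0)) := by
      rw [d.G_zero, hz]
      exact (hN.differentiable 0).hasFDerivAt
    have h4 := h3.comp (0 : Pl) (h2.comp (0 : Pl) h1)
    refine HasFDerivAt.fderiv (h4.congr_of_eventuallyEq ?_)
    filter_upwards [isOpen_ball.mem_nhds h0m] with x hx using hXr m ξ x hx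
  have hback : ∀ m ξ, Function.Injective (fderiv ℝ (X (m + 1, ξ)) 0) →
      Function.Injective (fderiv ℝ (X (m, ξ)) 0) := by
    intro m ξ h
    rw [hder] at h
    have hG : Function.Injective (fderiv ℝ (d.G (m, ξ)) 0) := by
      intro v w hvw
      have h1 : ∀ v, d.D (m, ξ) (fderiv ℝ (d.G (m, ξ)) 0 v) = v := fun v =>
        congrArg (fun T : Pl →L[ℝ] Pl => T v) (d.D_left (m, ξ))
      rw [← h1 v, ← h1 w, hvw]
    have hGs : Function.Surjective (fderiv ℝ (d.G (m, ξ)) 0) :=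
      LinearMap.surjective_of_injective (f := (fderiv ℝ (d.G (m, ξ)) 0).toLinearMap) hG
    intro v w hvw
    obtain ⟨v', rfl⟩ := hGs v
    obtain ⟨w', rfl⟩ := hGs w
    congr 1
    apply h
    simp only [ContinuousLinearMap.comp_apply]
    rw [hvw]
  -- large `m`
  have hcd : Cv R σ' (fun p x => fderiv ℝ (X p) x) (fun x => fderiv ℝ h x) :=
    hX.der hXd hh
  obtain ⟨C', hC'⟩ := hcd.bound hσ'0
  obtain ⟨κ, hκ0, hκ⟩ : ∃ κ : ℝ, 0 < κ ∧ ∀ v, κ * ‖v‖ ≤ ‖fderiv ℝ h 0 v‖ := by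
    obtain ⟨K, hK, hK'⟩ := LinearMap.exists_antilipschitzWith (fderiv ℝ h 0).toLinearMap
      (LinearMap.ker_eq_bot.2 hinj)
    refine ⟨(K : ℝ)⁻¹, by positivity, fun v => ?_⟩
    have h1 := hK'.le_mul_dist v 0
    rw [dist_zero_right, map_zero, dist_zero_right] at h1
    rw [inv_mul_le_iff₀ (by positivity)]
    exact h1
  obtain ⟨n, hn⟩ : ∃ n : ℕ, ∀ m ≥ n, |C'| * σ' ^ m < κ := by
    have h1 : Tendsto (fun m : ℕ => |C'| * σ' ^ m) atTop (𝓝 (|C'| * 0)) :=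
      (tendsto_pow_atTop_nhds_zero_of_lt_one hσ'0.le hσ').const_mul _
    rw [mul_zero] at h1
    exact eventually_atTop.1 (h1.eventually_lt_const hκ0)
  have hbig : ∀ m ≥ n, ∀ ξ, Function.Injective (fderiv ℝ (X (m, ξ)) 0) := by
    intro m hm ξ
    have h1 : ‖fderiv ℝ (X (m, ξ)) 0 - fderiv ℝ h 0‖ < κ := by
      have h2 := hC' (m, ξ) 0 h0m
      calc _ ≤ C' * σ' ^ m := h2
        _ ≤ |C'| * σ' ^ m := by gcongr; exact le_abs_self _
        _ < κ := hn m hm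
    rw [injective_iff_map_eq_zero]
    intro v hv
    by_contra hne
    have h3 := (fderiv ℝ (X (m, ξ)) 0 - fderiv ℝ h 0).le_opNorm v
    rw [_root_.sub_apply, hv, zero_sub, norm_neg] at h3
    have h4 : 0 < ‖v‖ := norm_pos_iff.2 hne
    have h5 := hκ v
    nlinarith
  have hall : ∀ j m ξ, n ≤ m + j → Function.Injective (fderiv ℝ (X (m, ξ)) 0) := by
    intro j
    induction j with
    | zero => intro m ξ h; exact hbig m (by simpa using h) ξ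
    | succ j ih => intro m ξ h; exact hback m ξ (ih (m + 1) ξ (by omega))
  exact ⟨X, hX, hXr, fun p => hz p.1 p.2, fun p => hall n p.1 p.2 (by omega)⟩

end Vale.Agent.P207.N3.H992
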